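import Mathlib
import Vale.Agent.P235.Comp.PathSum

/-!
# P235: the complete graphs have unbounded distortion

An explicit expander: the group `(ZMod p) ^ K` with the generators `b • (1, a, a ^ 2, …)`.
-/

namespace Vale.Agent.P235

open Finset

section fourier

variable {p K : ℕ} [Fact p.Prime]

/-- the generators: all multiples of the points of the moment curve -/
def gn (p K : ℕ) (s : ZMod p × ZMod p) : Fin K → ZMod p := fun i => s.2 * s.1 ^ (i : ℕ)

/-- the characters -/
noncomputable def ch (v z : Fin K → ZMod p) : ℂ := ZMod.stdAddChar (∑ i, v i * z i)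

theorem addChar_sum {A M ι : Type*} [AddCommMonoid A] [CommMonoid M] (ψ : AddChar A M)
    (s : Finset ι) (f : ι → A) : ψ (∑ i ∈ s, f i) = ∏ i ∈ s, ψ (f i) := by
  classical
  induction s using Finset.induction_on with
  | empty => simp
  | insert a s ha ih => rw [Finset.sum_insert ha, Finset.prod_insert ha, AddChar.map_add_eq_mul, ih]

theorem ch_sum (z : Fin K → ZMod p) :
    ∑ v : Fin K → ZMod p, ch v z = if z = 0 then (p : ℂ) ^ K else 0 := by
  classical
  have h1 : ∀ v : Fin K → ZMod p, ch v z = ∏ i, (ZMod.stdAddChar (v i * z i) : ℂ) := fun v => by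
    unfold ch
    rw [addChar_sum]
  simp_rw [h1]
  have h2 : ∑ v : Fin K → ZMod p, ∏ i, (ZMod.stdAddChar (v i * z i) : ℂ) =
      ∏ i, ∑ a : ZMod p, (ZMod.stdAddChar (a * z i) : ℂ) := by
    rw [Finset.prod_univ_sum, Fintype.piFinset_univ]
  rw [h2]
  simp_rw [AddChar.sum_mulShift _ (ZMod.isPrimitive_stdAddChar p), ZMod.card]
  by_cases hz : z = 0
  · simp [hz]
  · rw [if_neg hz]
    obtain ⟨i, hi⟩ := Function.ne_iff.1 hz
    refine Finset.prod_eq_zero (Finset.mem_univ i) ?_
    have hi' : z i ≠ 0 := hi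
    rw [if_neg hi']
    simp

theorem ch_add (v y z : Fin K → ZMod p) : ch v (y + z) = ch v y * ch v z := by
  unfold ch
  rw [← AddChar.map_add_eq_mul, ← Finset.sum_add_distrib]
  congr 1
  refine Finset.sum_congr rfl fun i _ => ?_
  simp only [Pi.add_apply]
  ring

theorem ch_neg (v z : Fin K → ZMod p) : ch v (-z) = (starRingEnd ℂ) (ch v z) := by
  unfold ch
  rw [← AddChar.map_neg_eq_conj]
  congr 1
  rw [← Finset.sum_neg_distrib]
  refine Finset.sum_congr rfl fun i _ => ?_
  simp only [Pi.neg_apply]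
  ring

/-- Fourier coefficients -/
noncomputable def ft (g : (Fin K → ZMod p) → ℝ) (v : Fin K → ZMod p) : ℂ :=
  ∑ x, (g x : ℂ) * ch v x

theorem ft_sq (g : (Fin K → ZMod p) → ℝ) (v : Fin K → ZMod p) :
    ∑ x, ∑ y, (g x : ℂ) * (g y : ℂ) * ch v (y - x) = (Complex.normSq (ft g v) : ℂ) := by
  rw [Complex.normSq_eq_conj_mul_self]
  unfold ft
  rw [map_sum, Finset.sum_mul_sum]
  refine Finset.sum_congr rfl fun x _ => Finset.sum_congr rfl fun y _ => ?_
  rw [sub_eq_add_neg, ch_add, ch_neg, map_mul, Complex.conj_ofReal]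
  ring

/-- the general quadratic identity -/
theorem quad (g : (Fin K → ZMod p) → ℝ) (t : Fin K → ZMod p) :
    ∑ v, (Complex.normSq (ft g v) : ℂ) * ch v (-t) =
      (p : ℂ) ^ K * ∑ x, (g x : ℂ) * (g (x + t) : ℂ) := by
  classical
  simp_rw [← ft_sq, Finset.sum_mul]
  rw [Finset.sum_comm, Finset.mul_sum]
  refine Finset.sum_congr rfl fun x _ => ?_
  rw [Finset.sum_comm]
  have h1 : ∀ y, ∑ v, (g x : ℂ) * (g y : ℂ) * ch v (y - x) * ch v (-t) =
      if y = x + t then (p : ℂ) ^ K * ((g x : ℂ) * (g (x + t) : ℂ)) else 0 := by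
    intro y
    have h2 : ∀ v : Fin K → ZMod p, (g x : ℂ) * (g y : ℂ) * ch v (y - x) * ch v (-t) =
        (g x : ℂ) * (g y : ℂ) * ch v (y - x - t) := fun v => by
      rw [sub_eq_add_neg (y - x) t, ch_add]
      ring
    simp_rw [h2]
    rw [← Finset.mul_sum, ch_sum]
    by_cases h : y = x + t
    · rw [if_pos h, if_pos (by rw [h]; abel), h]
      ring
    · rw [if_neg h, if_neg (fun h' => h (by
        have : y - x - t = 0 := h'
        rw [sub_sub, sub_eq_zero] at this
        exact this)), mul_zero]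
  simp_rw [h1]
  rw [Finset.sum_ite_eq' Finset.univ (x + t)]
  simp

/-- the number of zeros -/
theorem zeros_le {v : Fin K → ZMod p} (hv : v ≠ 0) :
    (Finset.univ.filter (fun a : ZMod p => ∑ i, v i * a ^ (i : ℕ) = 0)).card ≤ K := by
  classical
  set P : Polynomial (ZMod p) := ∑ i : Fin K, Polynomial.monomial (i : ℕ) (v i) with hP
  have hev : ∀ a, P.eval a = ∑ i, v i * a ^ (i : ℕ) := by
    intro a
    rw [hP, Polynomial.eval_finsetSum]
    simp
  have hP0 : P ≠ 0 := by
    obtain ⟨j, hj⟩ := Function.ne_iff.1 hv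
    intro h
    apply hj
    have h1 : P.coeff j = v j := by
      rw [hP, Polynomial.finsetSum_coeff]
      simp_rw [Polynomial.coeff_monomial]
      rw [Finset.sum_eq_single j]
      · simp
      · intro i _ hij
        rw [if_neg]
        exact fun h => hij (Fin.ext h)
      · simp
    rw [← h1, h]
    simp
  have hdeg : P.natDegree ≤ K := by
    refine Polynomial.natDegree_sum_le_of_forall_le _ _ ?_
    intro i _
    exact (Polynomial.natDegree_monomial_le _).trans i.2.le
  have h1 : Finset.univ.filter (fun a : ZMod p => ∑ i, v i * a ^ (i : ℕ) = 0) ⊆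
      P.roots.toFinset := by
    intro a ha
    rw [Multiset.mem_toFinset, Polynomial.mem_roots hP0, Polynomial.IsRoot.def, hev]
    exact (Finset.mem_filter.1 ha).2
  calc _ ≤ P.roots.toFinset.card := Finset.card_le_card h1
    _ ≤ Multiset.card P.roots := Multiset.toFinset_card_le _
    _ ≤ P.natDegree := Polynomial.card_roots' P
    _ ≤ K := hdeg

/-- the eigenvalues -/
theorem ch_gn (v : Fin K → ZMod p) : ∑ s : ZMod p × ZMod p, ch v (-gn p K s) =
    (p : ℂ) * (Finset.univ.filter (fun a : ZMod p => ∑ i, v i * a ^ (i : ℕ) = 0)).card := by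
  classical
  rw [Fintype.sum_prod_type]
  have h1 : ∀ a : ZMod p, ∑ b : ZMod p, ch v (-gn p K (a, b)) =
      if ∑ i, v i * a ^ (i : ℕ) = 0 then (p : ℂ) else 0 := by
    intro a
    have h2 : ∀ b : ZMod p, ch v (-gn p K (a, b)) =
        (ZMod.stdAddChar (b * (-∑ i, v i * a ^ (i : ℕ))) : ℂ) := by
      intro b
      unfold ch gn
      congr 1
      rw [mul_neg, Finset.mul_sum, ← Finset.sum_neg_distrib]
      refine Finset.sum_congr rfl fun i _ => ?_
      simp only [Pi.neg_apply]
      ring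
    simp_rw [h2]
    rw [AddChar.sum_mulShift _ (ZMod.isPrimitive_stdAddChar p), ZMod.card]
    by_cases h : ∑ i, v i * a ^ (i : ℕ) = 0
    · simp [h]
    · rw [if_neg h, if_neg (by rwa [neg_eq_zero])]
      simp
  simp_rw [h1]
  rw [← Finset.sum_filter, Finset.sum_const, nsmul_eq_mul, mul_comm]

/-- the real form: the sum of the products along the generators -/
theorem parseval (g : (Fin K → ZMod p) → ℝ) :
    ∑ v, Complex.normSq (ft g v) = (p : ℝ) ^ K * ∑ x, g x ^ 2 := by
  have h := quad g 0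
  have h0 : ∀ v : Fin K → ZMod p, ch v (-0) = 1 := by
    intro v
    unfold ch
    simp
  simp_rw [h0, add_zero, mul_one] at h
  have h2 : ((∑ v, Complex.normSq (ft g v) : ℝ) : ℂ) = (((p : ℝ) ^ K * ∑ x, g x ^ 2 : ℝ) : ℂ) := by
    push_cast
    rw [h]
    congr 1
    refine Finset.sum_congr rfl fun x _ => ?_
    ring
  exact_mod_cast h2

theorem ft_zero (g : (Fin K → ZMod p) → ℝ) : Complex.normSq (ft g 0) = (∑ x, g x) ^ 2 := by
  have h0 : ft g 0 = ((∑ x, g x : ℝ) : ℂ) := by
    unfold ft ch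
    push_cast
    refine Finset.sum_congr rfl fun x _ => ?_
    simp
  rw [h0, Complex.normSq_ofReal]
  ring

theorem gen_sum (g : (Fin K → ZMod p) → ℝ) :
    (p : ℝ) ^ K * ∑ s : ZMod p × ZMod p, ∑ x, g x * g (x + gn p K s) =
      ∑ v, Complex.normSq (ft g v) * ((p : ℝ) *
        (Finset.univ.filter (fun a : ZMod p => ∑ i, v i * a ^ (i : ℕ) = 0)).card) := by
  have h1 : ((p : ℂ) ^ K * ∑ s : ZMod p × ZMod p, ∑ x, (g x : ℂ) * (g (x + gn p K s) : ℂ)) =
      ∑ v, (Complex.normSq (ft g v) : ℂ) * ((p : ℂ) *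
        (Finset.univ.filter (fun a : ZMod p => ∑ i, v i * a ^ (i : ℕ) = 0)).card) := by
    rw [Finset.mul_sum]
    simp_rw [← quad, ← ch_gn]
    rw [Finset.sum_comm]
    refine Finset.sum_congr rfl fun v _ => ?_
    rw [Finset.mul_sum]
  exact_mod_cast h1

/-- the spectral gap -/
theorem gen_sum_le (hK : 2 * K ≤ p) (g : (Fin K → ZMod p) → ℝ) :
    (p : ℝ) ^ K * ∑ s : ZMod p × ZMod p, ∑ x, g x * g (x + gn p K s) ≤
      (p : ℝ) ^ 2 / 2 * ((∑ x, g x) ^ 2 + (p : ℝ) ^ K * ∑ x, g x ^ 2) := by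
  classical
  rw [gen_sum, ← parseval, ← ft_zero]
  have hp : (0 : ℝ) ≤ p := Nat.cast_nonneg _
  have h1 : ∀ v : Fin K → ZMod p, Complex.normSq (ft g v) * ((p : ℝ) *
        (Finset.univ.filter (fun a : ZMod p => ∑ i, v i * a ^ (i : ℕ) = 0)).card) ≤
      (p : ℝ) ^ 2 / 2 * ((if v = 0 then Complex.normSq (ft g 0) else 0) +
        Complex.normSq (ft g v)) := by
    intro v
    have h2 := Complex.normSq_nonneg (ft g v)
    by_cases hv : v = 0
    · rw [if_pos hv, hv]
      have h3 : (Finset.univ.filter (fun a : ZMod p =>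
          ∑ i, (0 : Fin K → ZMod p) i * a ^ (i : ℕ) = 0)).card = p := by
        have : (Finset.univ.filter (fun a : ZMod p =>
          ∑ i, (0 : Fin K → ZMod p) i * a ^ (i : ℕ) = 0)) = Finset.univ := by
          apply Finset.filter_true_of_mem
          intro a _
          simp
        rw [this, Finset.card_univ, ZMod.card]
      rw [h3]
      apply le_of_eq
      ring
    · rw [if_neg hv, zero_add]
      have h3 := zeros_le hv
      have h4 : ((Finset.univ.filter (fun a : ZMod p => ∑ i, v i * a ^ (i : ℕ) = 0)).card : ℝ) ≤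
          p / 2 := by
        have h5 : 2 * (Finset.univ.filter (fun a : ZMod p =>
            ∑ i, v i * a ^ (i : ℕ) = 0)).card ≤ p := by omega
        have h6 : 2 * ((Finset.univ.filter (fun a : ZMod p =>
            ∑ i, v i * a ^ (i : ℕ) = 0)).card : ℝ) ≤ p := by exact_mod_cast h5
        linarith
      calc _ ≤ Complex.normSq (ft g v) * ((p : ℝ) * (p / 2)) :=
            mul_le_mul_of_nonneg_left (mul_le_mul_of_nonneg_left h4 hp) h2
        _ = _ := by ring
  refine (Finset.sum_le_sum fun v _ => h1 v).trans (le_of_eq ?_)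
  rw [← Finset.mul_sum, Finset.sum_add_distrib]
  simp

/-- **Expansion**: the Poincaré inequality for real functions. -/
theorem poincare (hK : 2 * K ≤ p) (g : (Fin K → ZMod p) → ℝ) :
    (p : ℝ) ^ 2 * ∑ x, ∑ y, (g x - g y) ^ 2 ≤
      2 * (p : ℝ) ^ K * ∑ s : ZMod p × ZMod p, ∑ x, (g x - g (x + gn p K s)) ^ 2 := by
  have hcard : (Fintype.card (Fin K → ZMod p) : ℝ) = (p : ℝ) ^ K := by
    rw [Fintype.card_fun, ZMod.card, Fintype.card_fin]
    push_cast
    ring
  have hcard2 : (Fintype.card (ZMod p × ZMod p) : ℝ) = (p : ℝ) ^ 2 := by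
    rw [Fintype.card_prod, ZMod.card]
    push_cast
    ring
  have h1 : ∑ x, ∑ y, (g x - g y) ^ 2 =
      2 * (p : ℝ) ^ K * ∑ x, g x ^ 2 - 2 * (∑ x, g x) ^ 2 := by
    have e : ∀ x y, (g x - g y) ^ 2 = g x ^ 2 - 2 * (g x * g y) + g y ^ 2 := fun x y => by ring
    simp_rw [e, Finset.sum_add_distrib, Finset.sum_sub_distrib, ← Finset.mul_sum,
      ← Finset.sum_mul, Finset.sum_const, Finset.card_univ, nsmul_eq_mul, hcard,
      ← Finset.mul_sum]
    ring
  have h2 : ∑ s : ZMod p × ZMod p, ∑ x, (g x - g (x + gn p K s)) ^ 2 =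
      2 * (p : ℝ) ^ 2 * ∑ x, g x ^ 2 -
        2 * ∑ s : ZMod p × ZMod p, ∑ x, g x * g (x + gn p K s) := by
    have e : ∀ s : ZMod p × ZMod p, ∑ x, (g x - g (x + gn p K s)) ^ 2 =
        2 * ∑ x, g x ^ 2 - 2 * ∑ x, g x * g (x + gn p K s) := by
      intro s
      have e1 : ∑ x, g (x + gn p K s) ^ 2 = ∑ x, g x ^ 2 :=
        Equiv.sum_comp (Equiv.addRight (gn p K s)) (fun x => g x ^ 2)
      have e2 : ∀ x, (g x - g (x + gn p K s)) ^ 2 =
          g x ^ 2 - 2 * (g x * g (x + gn p K s)) + g (x + gn p K s) ^ 2 := fun x => by ring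
      simp_rw [e2, Finset.sum_add_distrib, Finset.sum_sub_distrib, e1, ← Finset.mul_sum]
      ring
    simp_rw [e, Finset.sum_sub_distrib, Finset.sum_const, Finset.card_univ, nsmul_eq_mul, hcard2,
      ← Finset.mul_sum]
    ring
  have h3 := gen_sum_le hK g
  rw [h1, h2]
  nlinarith [h3]

/-- The same for every finite combination of cuts. -/
theorem poincare_cut (hK : 2 * K ≤ p) {F : (Fin K → ZMod p) → (Fin K → ZMod p) → ℝ}
    (hF : IsL1 F) :
    (p : ℝ) ^ 2 * ∑ x, ∑ y, F x y ≤
      2 * (p : ℝ) ^ K * ∑ s : ZMod p × ZMod p, ∑ x, F x (x + gn p K s) := by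
  obtain ⟨ι, _, w, c, hw, hF⟩ := hF
  have key : ∀ i, (p : ℝ) ^ 2 * ∑ x, ∑ y, (if c i x = c i y then (0 : ℝ) else 1) ≤
      2 * (p : ℝ) ^ K * ∑ s : ZMod p × ZMod p, ∑ x,
        (if c i x = c i (x + gn p K s) then (0 : ℝ) else 1) := by
    intro i
    have h := poincare hK (fun x => if c i x = true then (1 : ℝ) else 0)
    have e : ∀ x y, ((if c i x = true then (1 : ℝ) else 0) - (if c i y = true then (1 : ℝ) else 0)) ^ 2 =
        if c i x = c i y then (0 : ℝ) else 1 := by
      intro x y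
      cases c i x <;> cases c i y <;> simp
    simp_rw [e] at h
    exact h
  have e1 : ∑ x, ∑ y, F x y =
      ∑ i, w i * ∑ x, ∑ y, (if c i x = c i y then (0 : ℝ) else 1) := by
    calc ∑ x, ∑ y, F x y = ∑ x, ∑ i, ∑ y, w i * (if c i x = c i y then (0 : ℝ) else 1) :=
          Finset.sum_congr rfl fun x _ => by
            simp_rw [hF]
            exact Finset.sum_comm
      _ = ∑ i, ∑ x, ∑ y, w i * (if c i x = c i y then (0 : ℝ) else 1) := Finset.sum_comm
      _ = _ := by simp_rw [Finset.mul_sum]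
  have e2 : ∑ s : ZMod p × ZMod p, ∑ x, F x (x + gn p K s) =
      ∑ i, w i * ∑ s : ZMod p × ZMod p, ∑ x,
        (if c i x = c i (x + gn p K s) then (0 : ℝ) else 1) := by
    calc ∑ s : ZMod p × ZMod p, ∑ x, F x (x + gn p K s) =
          ∑ s : ZMod p × ZMod p, ∑ i, ∑ x,
            w i * (if c i x = c i (x + gn p K s) then (0 : ℝ) else 1) :=
          Finset.sum_congr rfl fun s _ => by
            simp_rw [hF]
            exact Finset.sum_comm
      _ = ∑ i, ∑ s : ZMod p × ZMod p, ∑ x,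
            w i * (if c i x = c i (x + gn p K s) then (0 : ℝ) else 1) := Finset.sum_comm
      _ = _ := by simp_rw [Finset.mul_sum]
  rw [e1, e2, Finset.mul_sum, Finset.mul_sum]
  refine Finset.sum_le_sum fun i _ => ?_
  have h := mul_le_mul_of_nonneg_left (key i) (hw i)
  calc _ = w i * ((p : ℝ) ^ 2 * ∑ x, ∑ y, (if c i x = c i y then (0 : ℝ) else 1)) := by ring
    _ ≤ _ := h
    _ = _ := by ring

end fourier

section metric

variable {p K : ℕ} [Fact p.Prime]

/-- the sums of `j` generators -/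
def gsum (p K : ℕ) [Fact p.Prime] : ℕ → Finset (Fin K → ZMod p)
  | 0 => {0}
  | j + 1 => Finset.image (fun q : (Fin K → ZMod p) × (ZMod p × ZMod p) => q.1 + gn p K q.2)
      (gsum p K j ×ˢ Finset.univ)

theorem card_gsum (j : ℕ) : (gsum p K j).card ≤ p ^ (2 * j) := by
  induction j with
  | zero => simp [gsum]
  | succ j ih =>
    rw [gsum]
    refine Finset.card_image_le.trans ?_
    rw [Finset.card_product, Finset.card_univ, Fintype.card_prod, ZMod.card]
    calc (gsum p K j).card * (p * p) ≤ p ^ (2 * j) * (p * p) := Nat.mul_le_mul_right _ ih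
      _ = p ^ (2 * (j + 1)) := by ring

theorem gsum_mono {j j' : ℕ} (h : j ≤ j') : gsum p K j ⊆ gsum p K j' := by
  induction j', h using Nat.le_induction with
  | base => exact Finset.Subset.refl _
  | succ m _ ih =>
    intro x hx
    rw [gsum, Finset.mem_image]
    refine ⟨(x, (0, 0)), Finset.mem_product.2 ⟨ih hx, Finset.mem_univ _⟩, ?_⟩
    funext i
    simp [gn]

theorem gsum_succ {j : ℕ} {x : Fin K → ZMod p} (hx : x ∈ gsum p K j) (s : ZMod p × ZMod p) :
    x + gn p K s ∈ gsum p K (j + 1) := by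
  rw [gsum, Finset.mem_image]
  exact ⟨(x, s), Finset.mem_product.2 ⟨hx, Finset.mem_univ _⟩, rfl⟩

/-- `x` and `y` differ by a generator -/
def near (x y : Fin K → ZMod p) : Prop := ∃ s : ZMod p × ZMod p, y = x + gn p K s

theorem near_symm {x y : Fin K → ZMod p} (h : near x y) : near y x := by
  obtain ⟨⟨a, b⟩, rfl⟩ := h
  refine ⟨(a, -b), ?_⟩
  funext i
  simp [gn]

open Classical in
/-- the lengths: one for the generators, `r` for the other pairs -/
noncomputable def len (r : ℝ) : Sym2 (Fin K → ZMod p) → ℝ :=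
  Sym2.lift ⟨fun x y => if near x y then 1 else r, fun x y => by
    have : near x y ↔ near y x := ⟨near_symm, near_symm⟩
    simp only [this]⟩

theorem len_near (r : ℝ) {x y : Fin K → ZMod p} (h : near x y) : len r s(x, y) = 1 := by
  simp [len, h]

theorem len_far (r : ℝ) {x y : Fin K → ZMod p} (h : ¬ near x y) : len r s(x, y) = r := by
  simp [len, h]

theorem len_pos {r : ℝ} (hr : 0 < r) (e : Sym2 (Fin K → ZMod p)) : 0 < len r e := by
  induction e using Sym2.ind with
  | _ x y =>
    by_cases h : near x y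
    · rw [len_near r h]; norm_num
    · rw [len_far r h]; exact hr

/-- short walks only use generators -/
theorem walk_len {r : ℕ} {x y : Fin K → ZMod p}
    (w : (⊤ : SimpleGraph (Fin K → ZMod p)).Walk x y) :
    (r : ℝ) ≤ (w.edges.map (len (r : ℝ))).sum ∨
      ∃ j : ℕ, (j : ℝ) = (w.edges.map (len (r : ℝ))).sum ∧ y - x ∈ gsum p K j := by
  induction w with
  | nil => exact Or.inr ⟨0, by simp, by simp [gsum]⟩
  | @cons x a y h w ih =>
    rw [SimpleGraph.Walk.edges_cons, List.map_cons, List.sum_cons]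
    have h0 : 0 ≤ (w.edges.map (len (r : ℝ))).sum := by
      apply List.sum_nonneg
      intro t ht
      obtain ⟨e, -, rfl⟩ := List.mem_map.1 ht
      by_cases hr : r = 0
      · subst hr
        induction e using Sym2.ind with
        | _ x y =>
          by_cases h : near x y
          · rw [len_near _ h]; norm_num
          · rw [len_far _ h]; simp
      · exact (len_pos (by exact_mod_cast Nat.pos_of_ne_zero hr) e).le
    by_cases hn : near x a
    · rw [len_near _ hn]
      rcases ih with ih | ⟨j, hj, hm⟩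
      · left; linarith
      · right
        refine ⟨j + 1, by push_cast; linarith, ?_⟩
        obtain ⟨s, rfl⟩ := hn
        have := gsum_succ hm s
        have e : y - (x + gn p K s) + gn p K s = y - x := by abel
        rwa [e] at this
    · left
      rw [len_far _ hn]
      linarith

/-- far points are far -/
theorem pathDist_far {r : ℕ} {x y : Fin K → ZMod p} (h : y - x ∉ gsum p K r) :
    (r : ℝ) ≤ pathDist (⊤ : SimpleGraph (Fin K → ZMod p)) (len (r : ℝ)) x y := by
  have hne : Nonempty ((⊤ : SimpleGraph (Fin K → ZMod p)).Walk x y) :=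
    SimpleGraph.connected_top.preconnected x y
  refine le_ciInf fun w => ?_
  rcases walk_len (r := r) w with h1 | ⟨j, hj, hm⟩
  · exact h1
  · rw [← hj]
    by_contra hcon
    push Not at hcon
    have h2 : j ≤ r := by
      have : j < r := by exact_mod_cast hcon
      exact this.le
    exact h (gsum_mono h2 hm)

/-- generators are near -/
theorem pathDist_gn {r : ℕ} (hr : 1 ≤ r) (x : Fin K → ZMod p) (s : ZMod p × ZMod p) :
    pathDist (⊤ : SimpleGraph (Fin K → ZMod p)) (len (r : ℝ)) x (x + gn p K s) ≤ 1 := by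
  have hℓ : ∀ e ∈ (⊤ : SimpleGraph (Fin K → ZMod p)).edgeSet, 0 < len (r : ℝ) e := fun e _ =>
    len_pos (by exact_mod_cast hr) e
  by_cases h : x = x + gn p K s
  · rw [← h, (pathDist_isMet SimpleGraph.connected_top hℓ).self]
    norm_num
  · have h1 := pathDist_adj hℓ (show (⊤ : SimpleGraph (Fin K → ZMod p)).Adj x (x + gn p K s) from h)
    rwa [len_near _ ⟨s, rfl⟩] at h1

/-- **The lower bound for the complete graph on the group.** -/
theorem le_of_distortion {r : ℕ} (hK : 2 * K ≤ p) (hr : 2 * r + 1 ≤ K) (hr1 : 1 ≤ r) {C : ℝ}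
    (hC : 0 ≤ C) (h : DistortionLE (⊤ : SimpleGraph (Fin K → ZMod p)) C) : (r : ℝ) ≤ 4 * C := by
  classical
  have hℓ : ∀ e ∈ (⊤ : SimpleGraph (Fin K → ZMod p)).edgeSet, 0 < len (r : ℝ) e := fun e _ =>
    len_pos (by exact_mod_cast hr1) e
  obtain ⟨ρ, hρ, h1, h2, h3, h4, -, -⟩ := (h (len (r : ℝ)) hℓ).toL1S
  have hP := poincare_cut hK hρ.isL1
  have hp2 : 2 ≤ p := (Fact.out : p.Prime).two_le
  have hcard : (Fintype.card (Fin K → ZMod p) : ℝ) = (p : ℝ) ^ K := by
    rw [Fintype.card_fun, ZMod.card, Fintype.card_fin]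
    push_cast
    ring
  have hcardN : Fintype.card (Fin K → ZMod p) = p ^ K := by
    rw [Fintype.card_fun, ZMod.card, Fintype.card_fin]
  have hcard2 : (Fintype.card (ZMod p × ZMod p) : ℝ) = (p : ℝ) ^ 2 := by
    rw [Fintype.card_prod, ZMod.card]
    push_cast
    ring
  have hp0 : (0 : ℝ) < p := by
    have : 0 < p := by omega
    exact_mod_cast this
  have hN0 : (0 : ℝ) < (p : ℝ) ^ K := by positivity
  -- the upper bound
  have hup : ∑ s : ZMod p × ZMod p, ∑ x, ρ x (x + gn p K s) ≤ (p : ℝ) ^ 2 * ((p : ℝ) ^ K * C) := by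
    calc ∑ s : ZMod p × ZMod p, ∑ x, ρ x (x + gn p K s) ≤
          ∑ _s : ZMod p × ZMod p, ∑ _x : Fin K → ZMod p, C := by
          refine Finset.sum_le_sum fun s _ => Finset.sum_le_sum fun x _ => ?_
          refine (h2 x _).trans ?_
          calc C * _ ≤ C * 1 := mul_le_mul_of_nonneg_left (pathDist_gn hr1 x s) hC
            _ = C := mul_one C
      _ = _ := by
          rw [Finset.sum_const, Finset.sum_const, Finset.card_univ, Finset.card_univ, nsmul_eq_mul,
            nsmul_eq_mul, hcard, hcard2]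
  -- the lower bound
  have hlow : ∀ x, (r : ℝ) * ((p : ℝ) ^ K / 2) ≤ ∑ y, ρ x y := by
    intro x
    set A := Finset.univ.filter (fun y : Fin K → ZMod p => y - x ∉ gsum p K r) with hA
    have hA1 : p ^ K ≤ 2 * A.card := by
      have e1 := Finset.card_filter_add_card_filter_not (s := (Finset.univ : Finset (Fin K → ZMod p)))
        (fun y => y - x ∈ gsum p K r)
      have e2 : (Finset.univ.filter (fun y : Fin K → ZMod p => y - x ∈ gsum p K r)).card ≤
          (gsum p K r).card := by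
        refine Finset.card_le_card_of_injOn (fun y => y - x)
          (fun y hy => (Finset.mem_filter.1 hy).2) ?_
        intro y _ z _ hyz
        exact sub_left_injective hyz
      have e3 := card_gsum (p := p) (K := K) r
      have e4 : p ^ (2 * r) * 2 ≤ p ^ K := by
        calc p ^ (2 * r) * 2 ≤ p ^ (2 * r) * p := Nat.mul_le_mul_left _ hp2
          _ = p ^ (2 * r + 1) := (pow_succ _ _).symm
          _ ≤ p ^ K := Nat.pow_le_pow_right (by omega) hr
      rw [Finset.card_univ, hcardN] at e1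
      have e5 : A.card = (Finset.univ.filter (fun y : Fin K → ZMod p =>
        ¬ (y - x ∈ gsum p K r))).card := rfl
      omega
    have hA2 : (p : ℝ) ^ K / 2 ≤ A.card := by
      have : ((p ^ K : ℕ) : ℝ) ≤ ((2 * A.card : ℕ) : ℝ) := by exact_mod_cast hA1
      push_cast at this
      linarith
    calc (r : ℝ) * ((p : ℝ) ^ K / 2) ≤ r * A.card := mul_le_mul_of_nonneg_left hA2 (Nat.cast_nonneg _)
      _ = ∑ _y ∈ A, (r : ℝ) := by rw [Finset.sum_const, nsmul_eq_mul]; ring
      _ ≤ ∑ y ∈ A, ρ x y := Finset.sum_le_sum fun y hy =>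
          (pathDist_far (Finset.mem_filter.1 hy).2).trans (h1 x y)
      _ ≤ ∑ y, ρ x y := Finset.sum_le_sum_of_subset_of_nonneg (Finset.subset_univ _)
          fun y _ _ => h4 x y
  have hlow2 : (p : ℝ) ^ K * ((r : ℝ) * ((p : ℝ) ^ K / 2)) ≤ ∑ x, ∑ y, ρ x y := by
    calc (p : ℝ) ^ K * ((r : ℝ) * ((p : ℝ) ^ K / 2)) =
          ∑ _x : Fin K → ZMod p, ((r : ℝ) * ((p : ℝ) ^ K / 2)) := by
          rw [Finset.sum_const, Finset.card_univ, nsmul_eq_mul, hcard]
      _ ≤ _ := Finset.sum_le_sum fun x _ => hlow x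
  have h5 : (p : ℝ) ^ 2 * ((p : ℝ) ^ K * ((r : ℝ) * ((p : ℝ) ^ K / 2))) ≤
      2 * (p : ℝ) ^ K * ((p : ℝ) ^ 2 * ((p : ℝ) ^ K * C)) :=
    (mul_le_mul_of_nonneg_left hlow2 (by positivity)).trans
      (hP.trans (mul_le_mul_of_nonneg_left hup (by positivity)))
  have h6 : ((p : ℝ) ^ 2 * (p : ℝ) ^ K * (p : ℝ) ^ K / 2) * r ≤
      ((p : ℝ) ^ 2 * (p : ℝ) ^ K * (p : ℝ) ^ K / 2) * (4 * C) := by
    calc _ = (p : ℝ) ^ 2 * ((p : ℝ) ^ K * ((r : ℝ) * ((p : ℝ) ^ K / 2))) := by ring
      _ ≤ _ := h5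
      _ = _ := by ring
  exact le_of_mul_le_mul_left h6 (by positivity)

/-- the same for the complete graphs with at least `p ^ K` vertices -/
theorem le_of_distortion_fin {r n : ℕ} (hK : 2 * K ≤ p) (hr : 2 * r + 1 ≤ K) (hr1 : 1 ≤ r) {C : ℝ}
    (hC : 0 ≤ C) (hn : p ^ K ≤ n) (h : DistortionLE (⊤ : SimpleGraph (Fin n)) C) :
    (r : ℝ) ≤ 4 * C := by
  have hcardN : Fintype.card (Fin K → ZMod p) = p ^ K := by
    rw [Fintype.card_fun, ZMod.card, Fintype.card_fin]
  obtain ⟨f⟩ : Nonempty ((Fin K → ZMod p) ↪ Fin n) := by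
    apply Function.Embedding.nonempty_of_card_le
    rw [hcardN, Fintype.card_fin]
    exact hn
  have : Nonempty (Fin n) := ⟨f 0⟩
  refine le_of_distortion (p := p) (K := K) hK hr hr1 hC ?_
  refine DistortionLE.emb f f.injective (fun a b hab => ?_) SimpleGraph.connected_top
    SimpleGraph.connected_top h
  exact fun h' => hab (f.injective h')

end metric

/-- **The distortion of the complete graphs, with explicit constants**: if `c₁(K_n) ≤ C` then
`log n < 77 C log (C + 1)`. -/
theorem complete_log_explicit {C : ℝ} (hC : 1 ≤ C) {n : ℕ}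
    (hn : 77 * C * Real.log (C + 1) ≤ Real.log n) :
    ¬ DistortionLE (⊤ : SimpleGraph (Fin n)) C := by
  intro h
  have hC0 : 0 ≤ C := by linarith
  set r : ℕ := ⌊4 * C⌋₊ + 1 with hr
  have hr1 : 4 * C < r := by
    rw [hr]
    push_cast
    exact Nat.lt_floor_add_one _
  have hr2 : (r : ℝ) ≤ 4 * C + 1 := by
    rw [hr]
    push_cast
    linarith [Nat.floor_le (show 0 ≤ 4 * C by linarith)]
  set K : ℕ := 2 * r + 1 with hK
  have hKC : (K : ℝ) ≤ 11 * C := by
    rw [hK]
    push_cast
    linarith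
  obtain ⟨p, hp, hp1, hp2⟩ := Nat.exists_prime_lt_and_le_two_mul (2 * K) (by omega)
  have : Fact p.Prime := ⟨hp⟩
  have hpC : (p : ℝ) ≤ 44 * C := by
    have : (p : ℝ) ≤ ((2 * (2 * K) : ℕ) : ℝ) := by exact_mod_cast hp2
    push_cast at this
    linarith
  have hp0 : (0 : ℝ) < p := by exact_mod_cast hp.pos
  have hlog2 : Real.log 2 ≤ Real.log (C + 1) := Real.log_le_log (by norm_num) (by linarith)
  have hlogp : Real.log p ≤ 7 * Real.log (C + 1) := by
    calc Real.log p ≤ Real.log (2 ^ 6 * (C + 1)) := Real.log_le_log hp0 (by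
          norm_num
          linarith)
      _ = 6 * Real.log 2 + Real.log (C + 1) := by
          rw [Real.log_mul (by norm_num) (by linarith), Real.log_pow]
          norm_num
      _ ≤ _ := by linarith
  have hlogp0 : 0 ≤ Real.log p := Real.log_nonneg (by exact_mod_cast hp.one_lt.le)
  have hlC : 0 < Real.log (C + 1) := Real.log_pos (by linarith)
  have hpos : 0 < Real.log n := by
    have : 0 < 77 * C * Real.log (C + 1) := by positivity
    linarith
  have hn0 : (0 : ℝ) < n := by
    rcases Nat.eq_zero_or_pos n with h0 | h0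
    · rw [h0] at hpos
      simp at hpos
    · exact_mod_cast h0
  have hpn : p ^ K ≤ n := by
    have h1 : Real.log ((p : ℝ) ^ K) ≤ Real.log n := by
      rw [Real.log_pow]
      calc (K : ℝ) * Real.log p ≤ (11 * C) * (7 * Real.log (C + 1)) :=
            mul_le_mul hKC hlogp hlogp0 (by linarith)
        _ = 77 * C * Real.log (C + 1) := by ring
        _ ≤ _ := hn
    have h2 := (Real.log_le_log_iff (by positivity) hn0).1 h1
    exact_mod_cast h2
  have h3 := le_of_distortion_fin (p := p) (K := K) (r := r) hp1.le le_rfl (by omega) hC0 hpn h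
  linarith

theorem complete_log : ∃ A : ℝ, 0 < A ∧ ∀ C : ℝ, 1 ≤ C → ∀ n : ℕ,
    A * C * Real.log (C + 1) ≤ Real.log n → ¬ DistortionLE (⊤ : SimpleGraph (Fin n)) C :=
  ⟨77, by norm_num, fun _ hC _ hn => complete_log_explicit hC hn⟩

/-- **The complete graphs have unbounded distortion.** -/
theorem complete_unbounded (C : ℝ) :
    ∃ N : ℕ, ∀ n : ℕ, N ≤ n → ¬ DistortionLE (⊤ : SimpleGraph (Fin n)) C := by
  set C' : ℝ := max C 1 with hC'
  refine ⟨⌈Real.exp (77 * C' * Real.log (C' + 1))⌉₊, fun n hn h => ?_⟩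
  refine complete_log_explicit (C := C') (le_max_right _ _) (n := n) ?_ (h.mono (le_max_left _ _))
  have h1 : Real.exp (77 * C' * Real.log (C' + 1)) ≤ n := Nat.ceil_le.1 hn
  calc 77 * C' * Real.log (C' + 1) = Real.log (Real.exp (77 * C' * Real.log (C' + 1))) :=
        (Real.log_exp _).symm
    _ ≤ Real.log n := Real.log_le_log (Real.exp_pos _) h1

end Vale.Agent.P235
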